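import Crest.Agent.Lib.Spencer.PC

/-! Spencer-type discrepancy bound and bitwise rounding of real vectors. -/

set_option autoImplicit false

namespace Crest.Agent.Spencer

open Finset

variable {ι : Type*} [DecidableEq ι] {κ : Type*} [Fintype κ]

/-- **Full colouring**: `|I| ≤ M`, `|I| M ≤ T ^ 4`, at most `M` forms. -/
theorem full_colouring (a : κ → ι → ℝ) (ha : ∀ i k, |a i k| ≤ 1)
    (M : ℝ) (hκ : (Fintype.card κ : ℝ) ≤ M) (I : Finset ι) (hI : (I.card : ℝ) ≤ M)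
    (T : ℝ) (hT : 0 < T) (hT4 : I.card * M ≤ T ^ 4) :
    ∃ c : ι → ℤ, (∀ k, c k = 1 ∨ c k = -1) ∧ ∀ i, |∑ k ∈ I, a i k * (c k : ℝ)| ≤ 150 * T := by
  induction' hn : I.card using Nat.strong_induction_on with n ih generalizing I T
  rcases I.eq_empty_or_nonempty with h0 | h0
  · refine ⟨fun _ => 1, fun _ => Or.inl rfl, fun i => ?_⟩
    rw [h0]; simp only [Finset.sum_empty, abs_zero]; positivity
  have hc : Fintype.card I = I.card := Fintype.card_coe I
  obtain ⟨ψ, h1, h2, h3⟩ := partial_colouring (ι := I) (fun i k => a i k) (fun i k => ha i k) M hκ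
    (by rw [hc]; exact hI) (by rw [hc]; exact h0.card_pos) T hT (by rw [hc]; exact hT4)
  rw [hc] at h2
  let φ : ι → ℤ := fun k => if h : k ∈ I then ψ ⟨k, h⟩ else 0
  have hφ : ∀ k : I, φ k = ψ k := fun k => by simp [φ]
  have hφ1 : ∀ k, φ k = 0 ∨ φ k = 1 ∨ φ k = -1 := by
    intro k
    by_cases h : k ∈ I
    · rw [hφ ⟨k, h⟩]; exact h1 _
    · left; simp [φ, h]
  have hφ2 : (Finset.univ.filter fun k : I => ψ k ≠ 0).card = (I.filter fun k => φ k ≠ 0).card := by
    rw [Finset.card_filter, Finset.card_filter, ← Finset.sum_coe_sort I]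
    simp_rw [hφ]
  have hφ3 : ∀ i, |∑ k ∈ I, a i k * (φ k : ℝ)| ≤ 4.5 * T := by
    intro i
    rw [← Finset.sum_coe_sort I]
    simp_rw [hφ]
    exact h3 i
  rw [hφ2] at h2
  have hsplit := Finset.card_filter_add_card_filter_not (s := I) (fun k => φ k = 0)
  have hpos := h0.card_pos
  have hM0 : 0 ≤ M := le_trans (Nat.cast_nonneg _) hI
  have h8 : 8 * (I.filter fun k => φ k = 0).card ≤ 7 * I.card := by
    simp only [ne_eq] at h2; omega
  have h8' : 8 * ((I.filter fun k => φ k = 0).card : ℝ) ≤ 7 * I.card := by exact_mod_cast h8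
  obtain ⟨c, hc1, hc2⟩ := ih (I.filter fun k => φ k = 0).card (by omega)
    (I.filter fun k => φ k = 0) (by linarith [(Nat.cast_nonneg I.card : (0 : ℝ) ≤ _)])
    (0.97 * T) (by positivity) (by
      have : (0.97 * T) ^ 4 = 0.88529281 * T ^ 4 := by ring
      rw [this]
      have h9 : 0 ≤ T ^ 4 := by positivity
      nlinarith) rfl
  refine ⟨fun k => if φ k = 0 then c k else φ k, fun k => ?_, fun i => ?_⟩
  · beta_reduce
    split_ifs with h
    · exact hc1 k
    · exact (hφ1 k).resolve_left h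
  · have : ∑ k ∈ I, a i k * (((if φ k = 0 then c k else φ k : ℤ)) : ℝ) =
        ∑ k ∈ I, a i k * (φ k : ℝ) + ∑ k ∈ I.filter (fun k => φ k = 0), a i k * (c k : ℝ) := by
      rw [Finset.sum_filter, ← Finset.sum_add_distrib]
      refine Finset.sum_congr rfl fun k _ => ?_
      split_ifs with h
      · simp [h]
      · simp
    rw [this]
    have h4 := abs_add_le (∑ k ∈ I, a i k * (φ k : ℝ))
      (∑ k ∈ I.filter (fun k => φ k = 0), a i k * (c k : ℝ))
    linarith [hφ3 i, hc2 i]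

variable [Fintype ι]

/-- bitwise rounding of dyadic rationals -/
theorem dyadic_rounding (a : κ → ι → ℝ) (ha : ∀ i k, |a i k| ≤ 1)
    (M : ℝ) (hκ : (Fintype.card κ : ℝ) ≤ M) (hι : (Fintype.card ι : ℝ) ≤ M)
    (S τ : ℝ) (hτ : 0 < τ) (hτ4 : S * M ≤ τ ^ 4) (J : ℕ) (y : ι → ℤ)
    (hy0 : ∀ k, 0 ≤ y k) (hy1 : ∀ k, y k ≤ 2 ^ J) (hS : ∑ k, (y k : ℝ) ≤ 2 ^ J * S) :
    ∃ z : ι → ℤ, (∀ k, z k = 0 ∨ z k = 1) ∧
      ∀ i, |∑ k, a i k * ((z k : ℝ) - y k / 2 ^ J)| ≤ 225 * τ * (1 - 0.6 ^ J) := by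
  induction J generalizing y with
  | zero =>
    refine ⟨y, fun k => ?_, fun i => by simp⟩
    have := hy0 k; have := hy1 k; omega
  | succ J ih =>
    have hM0 : 0 ≤ M := le_trans (Nat.cast_nonneg _) hι
    let I : Finset ι := Finset.univ.filter fun k => y k % 2 = 1
    have hI1 : (I.card : ℝ) ≤ M :=
      le_trans (by exact_mod_cast Finset.card_le_univ I) hι
    have hI2 : (I.card : ℝ) ≤ 2 ^ (J + 1) * S := by
      refine le_trans ?_ hS
      rw [Finset.card_filter]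
      push_cast
      refine Finset.sum_le_sum fun k _ => ?_
      split_ifs with h
      · have := hy0 k
        have h2 : 1 ≤ y k := by omega
        exact_mod_cast h2
      · exact_mod_cast hy0 k
    have hS0 : 0 ≤ S * M := by
      have h1 : (0 : ℝ) ≤ 2 ^ (J + 1) * S := le_trans (Nat.cast_nonneg _) hI2
      have h2 : 0 ≤ S := by
        by_contra h
        push Not at h
        have : (2 : ℝ) ^ (J + 1) * S < 0 := mul_neg_of_pos_of_neg (by positivity) h
        linarith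
      positivity
    obtain ⟨c, hc1, hc2, hc3⟩ : ∃ c : ι → ℤ, (∀ k, c k = 1 ∨ c k = -1) ∧
        (∀ i, |∑ k ∈ I, a i k * (c k : ℝ)| ≤ 150 * (τ * 1.2 ^ (J + 1))) ∧
        ∑ k ∈ I, (c k : ℝ) ≤ 0 := by
      obtain ⟨c, hc1, hc2⟩ := full_colouring a ha M hκ I hI1 (τ * 1.2 ^ (J + 1)) (by positivity) (by
        rw [mul_pow, ← pow_mul, mul_comm (J + 1), pow_mul]
        have h1 : (2 : ℝ) ^ (J + 1) ≤ (1.2 ^ 4) ^ (J + 1) := by gcongr; norm_num
        calc _ ≤ 2 ^ (J + 1) * S * M := by gcongr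
          _ = S * M * 2 ^ (J + 1) := by ring
          _ ≤ _ := by gcongr)
      by_cases h : ∑ k ∈ I, (c k : ℝ) ≤ 0
      · exact ⟨c, hc1, hc2, h⟩
      · refine ⟨fun k => -c k, fun k => ?_, fun i => ?_, ?_⟩
        · rcases hc1 k with h | h <;> simp [h]
        · simpa [Finset.sum_neg_distrib] using hc2 i
        · push Not at h
          simpa [Finset.sum_neg_distrib] using h.le
    let d : ι → ℤ := fun k => if y k % 2 = 1 then c k else 0
    let y' : ι → ℤ := fun k => (y k + d k) / 2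
    have hy' : ∀ k, 2 * y' k = y k + d k := by
      intro k
      simp only [y', d]
      rcases hc1 k with h | h <;> split_ifs <;> omega
    have hy'R : ∀ k, (y' k : ℝ) = (y k + d k) / 2 := by
      intro k
      have : (2 : ℝ) * y' k = y k + d k := by exact_mod_cast hy' k
      linarith
    have hd : ∀ f : ι → ℝ, ∑ k, f k * (d k : ℝ) = ∑ k ∈ I, f k * (c k : ℝ) := by
      intro f
      rw [Finset.sum_filter]
      refine Finset.sum_congr rfl fun k _ => ?_
      simp only [d]; split_ifs <;> simp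
    obtain ⟨z, hz1, hz2⟩ := ih y' (fun k => by
        have h1 := hy' k; have h2 := hy0 k
        simp only [d] at h1
        rcases hc1 k with h | h <;> split_ifs at h1 <;> omega)
      (fun k => by
        have h1 := hy' k; have h2 := hy1 k
        rw [pow_succ] at h2
        simp only [d] at h1
        rcases hc1 k with h | h <;> split_ifs at h1 <;> omega)
      (by
        simp_rw [hy'R]
        rw [← Finset.sum_div, Finset.sum_add_distrib]
        have h1 := hd (fun _ => 1)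
        simp only [one_mul] at h1
        rw [h1]
        rw [pow_succ] at hS
        linarith)
    refine ⟨z, hz1, fun i => ?_⟩
    have h1 : ∑ k, a i k * ((z k : ℝ) - y k / 2 ^ (J + 1)) =
        ∑ k, a i k * ((z k : ℝ) - y' k / 2 ^ J) + (∑ k ∈ I, a i k * (c k : ℝ)) / 2 ^ (J + 1) := by
      rw [← hd, Finset.sum_div, ← Finset.sum_add_distrib]
      refine Finset.sum_congr rfl fun k _ => ?_
      rw [hy'R]; field_simp; ring
    rw [h1]
    refine (abs_add_le _ _).trans ?_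
    have h2 : |(∑ k ∈ I, a i k * (c k : ℝ)) / 2 ^ (J + 1)| ≤ 150 * τ * 0.6 ^ (J + 1) := by
      rw [abs_div, abs_of_pos (by positivity : (0 : ℝ) < 2 ^ (J + 1)),
        div_le_iff₀ (by positivity)]
      refine (hc2 i).trans (le_of_eq ?_)
      rw [mul_assoc, mul_assoc, ← mul_pow]; norm_num
    have h3 := hz2 i
    rw [pow_succ (0.6 : ℝ)] at h2 ⊢
    linarith

/-- **Rounding of a vector of small mass** `y ∈ [0,1]^ι`, `∑ y ≤ S`, to a `0/1` vector. -/
theorem real_rounding (a : κ → ι → ℝ) (ha : ∀ i k, |a i k| ≤ 1)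
    (M : ℝ) (hκ : (Fintype.card κ : ℝ) ≤ M) (hι : (Fintype.card ι : ℝ) ≤ M)
    (S τ : ℝ) (hτ : 0 < τ) (hτ4 : S * M ≤ τ ^ 4) (y : ι → ℝ)
    (hy0 : ∀ k, 0 ≤ y k) (hy1 : ∀ k, y k ≤ 1) (hS : ∑ k, y k ≤ S) :
    ∃ z : ι → ℤ, (∀ k, z k = 0 ∨ z k = 1) ∧
      ∀ i, |∑ k, a i k * ((z k : ℝ) - y k)| ≤ 226 * τ := by
  obtain ⟨J, hJ⟩ := pow_unbounded_of_one_lt (Fintype.card ι / τ) (by norm_num : (1 : ℝ) < 2)
  have h2J : (0 : ℝ) < 2 ^ J := by positivity
  obtain ⟨z, hz1, hz2⟩ := dyadic_rounding a ha M hκ hι S τ hτ hτ4 J (fun k => ⌊2 ^ J * y k⌋)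
    (fun k => Int.floor_nonneg.2 (by have := hy0 k; positivity))
    (fun k => by
      have h1 := Int.floor_le (2 ^ J * y k)
      have h2 : 2 ^ J * y k ≤ 2 ^ J := by have := hy1 k; nlinarith
      have h3 : ((⌊2 ^ J * y k⌋ : ℤ) : ℝ) ≤ ((2 ^ J : ℤ) : ℝ) := by push_cast; linarith
      exact_mod_cast h3)
    (by
      calc _ ≤ ∑ k, 2 ^ J * y k := Finset.sum_le_sum fun k _ => Int.floor_le _
        _ = 2 ^ J * ∑ k, y k := by rw [Finset.mul_sum]
        _ ≤ _ := by gcongr)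
  refine ⟨z, hz1, fun i => ?_⟩
  have h1 : ∑ k, a i k * ((z k : ℝ) - y k) =
      ∑ k, a i k * ((z k : ℝ) - (⌊2 ^ J * y k⌋ : ℤ) / 2 ^ J) +
        ∑ k, a i k * ((⌊2 ^ J * y k⌋ : ℤ) / 2 ^ J - y k) := by
    rw [← Finset.sum_add_distrib]
    refine Finset.sum_congr rfl fun k _ => by ring
  rw [h1]
  refine (abs_add_le _ _).trans ?_
  have h2 : |∑ k, a i k * ((⌊2 ^ J * y k⌋ : ℤ) / 2 ^ J - y k)| ≤ τ := by
    refine (Finset.abs_sum_le_sum_abs _ _).trans ?_
    have h3 : ∀ k, |a i k * ((⌊2 ^ J * y k⌋ : ℤ) / 2 ^ J - y k)| ≤ 1 / 2 ^ J := by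
      intro k
      rw [abs_mul]
      have h4 : |((⌊2 ^ J * y k⌋ : ℤ) : ℝ) / 2 ^ J - y k| ≤ 1 / 2 ^ J := by
        have h5 := Int.floor_le (2 ^ J * y k)
        have h6 := Int.lt_floor_add_one (2 ^ J * y k)
        have h7 : ((⌊2 ^ J * y k⌋ : ℤ) : ℝ) / 2 ^ J - y k =
            (((⌊2 ^ J * y k⌋ : ℤ) : ℝ) - 2 ^ J * y k) / 2 ^ J := by field_simp
        rw [h7, abs_div, abs_of_pos h2J]
        gcongr
        rw [abs_le]; constructor <;> linarith
      exact (mul_le_mul (ha i k) h4 (abs_nonneg _) zero_le_one).trans (one_mul _).le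
    refine (Finset.sum_le_sum fun k _ => h3 k).trans ?_
    rw [Finset.sum_const, Finset.card_univ, nsmul_eq_mul, mul_one_div, div_le_iff₀ h2J]
    rw [div_lt_iff₀ hτ] at hJ
    linarith
  have h3 := hz2 i
  have h4 : 0 ≤ τ * 0.6 ^ J := by positivity
  linarith

end Crest.Agent.Spencer
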