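import Mathlib

/-! The supremum of a polynomial of degree `< N` on the unit circle is at most twice its maximum on
a grid of `40 N + 1` points (weak Bernstein inequality from the Cauchy estimate). -/

set_option autoImplicit false

namespace Crest.Agent.Spencer

open Finset Metric

lemma max_modulus (f : ℂ → ℂ) (hf : Differentiable ℂ f) (K : ℝ)
    (hK : ∀ z : ℂ, ‖z‖ = 1 → ‖f z‖ ≤ K) (z : ℂ) (hz : ‖z‖ ≤ 1) : ‖f z‖ ≤ K := by
  refine Complex.norm_le_of_forall_mem_frontier_norm_le (U := ball 0 1) isBounded_ball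
    hf.diffContOnCl (fun w hw => hK w ?_) ?_
  · rw [frontier_ball _ one_ne_zero] at hw; simpa using hw
  · rw [closure_ball _ one_ne_zero]; simpa using hz

lemma growth (N : ℕ) (d : Fin N → ℂ) (K : ℝ)
    (hK : ∀ z : ℂ, ‖z‖ = 1 → ‖∑ k : Fin N, d k * z ^ (k : ℕ)‖ ≤ K) (z : ℂ)
    (hz : ‖z‖ ≤ 1 + (N : ℝ)⁻¹) : ‖∑ k : Fin N, d k * z ^ (k : ℕ)‖ ≤ 3 * K := by
  have hK0 : 0 ≤ K := le_trans (norm_nonneg _) (hK 1 (by simp))
  rcases le_or_gt ‖z‖ 1 with h | h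
  · have := max_modulus (fun z => ∑ k : Fin N, d k * z ^ (k : ℕ)) (by fun_prop) K hK z h
    linarith
  have key : ∀ w : ℂ, w ≠ 0 → ∑ k : Fin N, d k * w ^ (k : ℕ) =
      w ^ N * ∑ k : Fin N, d k * (w⁻¹) ^ (N - (k : ℕ)) := by
    intro w hw
    rw [Finset.mul_sum]
    refine Finset.sum_congr rfl fun k _ => ?_
    have h1 : w ^ N = w ^ (k : ℕ) * w ^ (N - (k : ℕ)) := by
      rw [← pow_add]; congr 1; have := k.2; omega
    rw [h1, inv_pow]; field_simp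
  have hR := max_modulus (fun w => ∑ k : Fin N, d k * w ^ (N - (k : ℕ))) (by fun_prop) K (by
    intro w hw
    have hw0 : w ≠ 0 := by rintro rfl; simp at hw
    have h1 := key w⁻¹ (inv_ne_zero hw0)
    have h2 := hK w⁻¹ (by simp [hw])
    rw [h1, norm_mul, inv_inv] at h2
    simpa [hw] using h2)
  have hz0 : z ≠ 0 := by rintro rfl; simp at h; linarith
  rw [key z hz0, norm_mul, norm_pow]
  have h1 := hR z⁻¹ (by rw [norm_inv]; exact inv_le_one_of_one_le₀ h.le)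
  have h2 : ‖z‖ ^ N ≤ 3 := by
    calc _ ≤ (1 + (N : ℝ)⁻¹) ^ N := by gcongr
      _ ≤ Real.exp 1 := Real.one_add_inv_pow_le_exp
      _ ≤ 3 := by have := Real.exp_one_lt_d9; linarith
  gcongr

lemma lipschitz (N : ℕ) (hN : 0 < N) (d : Fin N → ℂ) (K : ℝ)
    (hK : ∀ z : ℂ, ‖z‖ = 1 → ‖∑ k : Fin N, d k * z ^ (k : ℕ)‖ ≤ K) (z w : ℂ)
    (hz : ‖z‖ ≤ 1) (hw : ‖w‖ ≤ 1) :
    ‖∑ k : Fin N, d k * z ^ (k : ℕ) - ∑ k : Fin N, d k * w ^ (k : ℕ)‖ ≤ 3 * K * N * ‖z - w‖ := by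
  have hf : Differentiable ℂ (fun z : ℂ => ∑ k : Fin N, d k * z ^ (k : ℕ)) := by fun_prop
  have hN' : (0 : ℝ) < N := by exact_mod_cast hN
  refine Convex.norm_image_sub_le_of_norm_deriv_le (s := closedBall (0 : ℂ) 1)
    (f := fun z : ℂ => ∑ k : Fin N, d k * z ^ (k : ℕ)) (fun x _ => hf x) (fun x hx => ?_)
    (convex_closedBall _ _) (by simpa using hw) (by simpa using hz)
  have := Complex.norm_deriv_le_of_forall_mem_sphere_norm_le (c := x) (R := (N : ℝ)⁻¹)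
    (C := 3 * K) (by positivity) hf.diffContOnCl (fun u hu => growth N d K hK u (by
      have h1 : ‖x‖ ≤ 1 := by simpa using hx
      have h2 : ‖u - x‖ = (N : ℝ)⁻¹ := by simpa [dist_eq_norm] using hu
      have h3 := norm_add_le x (u - x)
      rw [add_sub_cancel] at h3
      linarith))
  rwa [div_inv_eq_mul] at this

/-- the grid points -/
noncomputable def grid (N : ℕ) (j : Fin (40 * N + 1)) : ℂ :=
  Complex.exp (Complex.I * ((-Real.pi + 2 * Real.pi * (j : ℕ) / (40 * N) : ℝ) : ℂ))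

lemma norm_grid (N : ℕ) (j : Fin (40 * N + 1)) : ‖grid N j‖ = 1 := by
  rw [grid, mul_comm, Complex.norm_exp_ofReal_mul_I]

lemma exists_grid (N : ℕ) (hN : 0 < N) (z : ℂ) (hz : ‖z‖ = 1) :
    ∃ j, ‖z - grid N j‖ ≤ 2 * Real.pi / (40 * N) := by
  have hN' : (0 : ℝ) < N := by exact_mod_cast hN
  have hπ := Real.pi_pos
  set θ := Complex.arg z with hθ
  have h1 : -Real.pi < θ := Complex.neg_pi_lt_arg z
  have h2 : θ ≤ Real.pi := Complex.arg_le_pi z
  have h3 : z = Complex.exp (Complex.I * θ) := by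
    have := Complex.norm_mul_exp_arg_mul_I z
    rw [hz] at this
    rw [mul_comm]; simpa using this.symm
  set u : ℝ := (θ + Real.pi) * (40 * N) / (2 * Real.pi) with hu
  have hu0 : 0 ≤ u := by have : 0 ≤ θ + Real.pi := by linarith
                         positivity
  have hu1 : u ≤ (40 * N : ℕ) := by
    rw [hu, div_le_iff₀ (by positivity)]; push_cast; nlinarith
  have hj : ⌊u⌋₊ < 40 * N + 1 := Nat.lt_succ_of_le (Nat.floor_le_of_le hu1)
  refine ⟨⟨⌊u⌋₊, hj⟩, ?_⟩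
  set φ : ℝ := -Real.pi + 2 * Real.pi * (⌊u⌋₊ : ℕ) / (40 * N) with hφ
  have h4 : z - grid N ⟨⌊u⌋₊, hj⟩ = Complex.exp (Complex.I * φ) *
      (Complex.exp (Complex.I * ((θ - φ : ℝ) : ℂ)) - 1) := by
    rw [mul_sub, ← Complex.exp_add, mul_one, grid]
    congr 1
    rw [h3]; congr 1; push_cast; ring
  rw [h4, norm_mul, mul_comm Complex.I (φ : ℂ), Complex.norm_exp_ofReal_mul_I, one_mul]
  refine Real.norm_exp_I_mul_ofReal_sub_one_le.trans ?_
  have h5 : θ - φ = 2 * Real.pi / (40 * N) * (u - ⌊u⌋₊) := by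
    rw [hφ]
    have : θ = 2 * Real.pi / (40 * N) * u - Real.pi := by rw [hu]; field_simp; ring
    rw [this]; ring
  have h6 := Nat.floor_le hu0
  have h7 := Nat.lt_floor_add_one u
  rw [h5, Real.norm_eq_abs, abs_mul, abs_of_pos (by positivity), abs_of_nonneg (by linarith)]
  exact mul_le_of_le_one_right (by positivity) (by linarith)

/-- **Grid bound.** -/
theorem sup_le_grid (N : ℕ) (d : Fin N → ℂ) (E : ℝ)
    (hE : ∀ j, ‖∑ k : Fin N, d k * grid N j ^ (k : ℕ)‖ ≤ E) (z : ℂ) (hz : ‖z‖ = 1) :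
    ‖∑ k : Fin N, d k * z ^ (k : ℕ)‖ ≤ 2 * E := by
  have hE0 : 0 ≤ E := le_trans (norm_nonneg _) (hE 0)
  rcases Nat.eq_zero_or_pos N with rfl | hN
  · simpa using hE0
  have hN' : (0 : ℝ) < N := by exact_mod_cast hN
  obtain ⟨z₀, hz₀, hmax⟩ := (isCompact_sphere (0 : ℂ) 1).exists_isMaxOn ⟨1, by simp⟩
    (f := fun z : ℂ => ‖∑ k : Fin N, d k * z ^ (k : ℕ)‖) (by fun_prop)
  set K := ‖∑ k : Fin N, d k * z₀ ^ (k : ℕ)‖ with hKdef
  have hK : ∀ z : ℂ, ‖z‖ = 1 → ‖∑ k : Fin N, d k * z ^ (k : ℕ)‖ ≤ K :=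
    fun z hz => hmax (by simpa using hz)
  have hz₀' : ‖z₀‖ = 1 := by simpa using hz₀
  obtain ⟨j, hj⟩ := exists_grid N hN z₀ hz₀'
  have h1 := lipschitz N hN d K hK z₀ (grid N j) hz₀'.le (norm_grid N j).le
  have hK0 : 0 ≤ K := norm_nonneg _
  have h2 : 3 * K * N * ‖z₀ - grid N j‖ ≤ K / 2 := by
    calc _ ≤ 3 * K * N * (2 * Real.pi / (40 * N)) := by gcongr
      _ = K * (3 * Real.pi / 20) := by field_simp; ring
      _ ≤ K * (1 / 2) := mul_le_mul_of_nonneg_left (by have := Real.pi_lt_d2; linarith) hK0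
      _ = _ := by ring
  have h3 := norm_sub_norm_le (∑ k : Fin N, d k * z₀ ^ (k : ℕ))
    (∑ k : Fin N, d k * grid N j ^ (k : ℕ))
  have h4 := hE j
  have h5 := hK z hz
  linarith

end Crest.Agent.Spencer
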