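import Mathlib

/-! Spencer's partial colouring lemma, by pigeonhole on rounded linear forms. -/

set_option autoImplicit false

namespace Crest.Agent.Spencer

open Finset

/-- the sign attached to a boolean -/
def sg (b : Bool) : ℤ := if b then 1 else -1

lemma abs_round_le (s t : ℝ) (hs : 1 ≤ s) :
    |((round t : ℤ) : ℝ)| ≤ Real.exp (-s / 2) * (Real.exp (s * t) + Real.exp (-(s * t))) := by
  by_cases h : |t| < 1 / 2
  · have : round t = 0 := by
      rw [round_eq_zero_iff]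
      rw [abs_lt] at h
      exact ⟨h.1.le, h.2⟩
    rw [this]
    simp only [Int.cast_zero, abs_zero]
    positivity
  · push Not at h
    have h1 : |((round t : ℤ) : ℝ)| ≤ |t| + 1 / 2 := by
      have := abs_sub_round t
      have h2 := abs_sub_abs_le_abs_sub ((round t : ℤ) : ℝ) t
      rw [abs_sub_comm] at h2
      linarith
    have h2 : |t| + 1 / 2 ≤ Real.exp (s * (|t| - 1 / 2)) := by
      have := Real.add_one_le_exp (s * (|t| - 1 / 2))
      nlinarith
    have h3 : Real.exp (s * (|t| - 1 / 2)) = Real.exp (-s / 2) * Real.exp (s * |t|) := by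
      rw [← Real.exp_add]; congr 1; ring
    have h4 : Real.exp (s * |t|) ≤ Real.exp (s * t) + Real.exp (-(s * t)) := by
      rcases abs_cases t with h5 | h5
      · rw [h5.1]; have := Real.exp_pos (-(s * t)); linarith
      · rw [h5.1, mul_neg]; have := Real.exp_pos (s * t); linarith
    calc _ ≤ _ := h1
      _ ≤ _ := h2
      _ = _ := h3
      _ ≤ _ := by gcongr

variable {ι : Type*} [Fintype ι] [DecidableEq ι]

lemma sum_exp_le (a : ι → ℝ) (ha : ∀ k, |a k| ≤ 1) (u : ℝ) :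
    ∑ χ : ι → Bool, Real.exp (u * ∑ k, a k * (sg (χ k) : ℝ))
      ≤ 2 ^ Fintype.card ι * Real.exp (u ^ 2 * Fintype.card ι / 2) := by
  have h1 : ∀ χ : ι → Bool, Real.exp (u * ∑ k, a k * (sg (χ k) : ℝ))
      = ∏ k, Real.exp (u * (a k * (sg (χ k) : ℝ))) := by
    intro χ; rw [Finset.mul_sum, Real.exp_sum]
  simp_rw [h1]
  have h2 := Finset.prod_univ_sum (fun _ : ι => (Finset.univ : Finset Bool))
    (fun k b => Real.exp (u * (a k * (sg b : ℝ))))
  rw [Fintype.piFinset_univ] at h2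
  rw [← h2]
  have h3 : ∀ k, ∑ b : Bool, Real.exp (u * (a k * (sg b : ℝ))) ≤ 2 * Real.exp (u ^ 2 / 2) := by
    intro k
    rw [Fintype.sum_bool]
    have h4 := Real.cosh_le_exp_half_sq (u * a k)
    rw [Real.cosh_eq] at h4
    have h5 : (u * a k) ^ 2 / 2 ≤ u ^ 2 / 2 := by
      have : (a k) ^ 2 ≤ 1 := by have := ha k; rw [← sq_abs]; nlinarith [abs_nonneg (a k)]
      rw [mul_pow]; nlinarith [sq_nonneg u]
    have h6 := Real.exp_le_exp.2 h5
    simp only [sg, if_true, Int.cast_one, mul_one, Bool.false_eq_true, if_false, Int.cast_neg,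
      mul_neg]
    linarith
  calc _ ≤ ∏ _k : ι, 2 * Real.exp (u ^ 2 / 2) :=
        Finset.prod_le_prod (fun k _ => by positivity) (fun k _ => h3 k)
    _ = _ := by
        rw [Finset.prod_const, Finset.card_univ, mul_pow, ← Real.exp_nat_mul]
        congr 2; ring

lemma sum_abs_round_le (a : ι → ℝ) (ha : ∀ k, |a k| ≤ 1) (Λ : ℝ) (hΛ : 0 < Λ)
    (hm : 0 < Fintype.card ι) (hs : 2 * (Fintype.card ι : ℝ) ≤ Λ ^ 2) :
    ∑ χ : ι → Bool, |((round ((∑ k, a k * (sg (χ k) : ℝ)) / Λ) : ℤ) : ℝ)|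
      ≤ 2 ^ Fintype.card ι * (2 * Real.exp (-(Λ ^ 2 / (8 * Fintype.card ι)))) := by
  set m : ℝ := (Fintype.card ι : ℝ) with hmdef
  have hm0 : 0 < m := by rw [hmdef]; exact_mod_cast hm
  set s : ℝ := Λ ^ 2 / (2 * m) with hsdef
  have hs1 : 1 ≤ s := by rw [hsdef, le_div_iff₀ (by positivity)]; linarith
  have h1 : ∀ χ : ι → Bool, |((round ((∑ k, a k * (sg (χ k) : ℝ)) / Λ) : ℤ) : ℝ)| ≤
      Real.exp (-s / 2) * (Real.exp ((s / Λ) * ∑ k, a k * (sg (χ k) : ℝ)) +
        Real.exp ((-(s / Λ)) * ∑ k, a k * (sg (χ k) : ℝ))) := by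
    intro χ
    have := abs_round_le s ((∑ k, a k * (sg (χ k) : ℝ)) / Λ) hs1
    convert this using 4 <;> ring
  calc _ ≤ _ := Finset.sum_le_sum (fun χ _ => h1 χ)
    _ = Real.exp (-s / 2) * (∑ χ : ι → Bool, Real.exp ((s / Λ) * ∑ k, a k * (sg (χ k) : ℝ)) +
        ∑ χ : ι → Bool, Real.exp ((-(s / Λ)) * ∑ k, a k * (sg (χ k) : ℝ))) := by
        rw [← Finset.mul_sum, Finset.sum_add_distrib]
    _ ≤ Real.exp (-s / 2) * (2 ^ Fintype.card ι * Real.exp ((s / Λ) ^ 2 * m / 2) +
        2 ^ Fintype.card ι * Real.exp ((-(s / Λ)) ^ 2 * m / 2)) := by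
        gcongr
        · exact sum_exp_le a ha _
        · exact sum_exp_le a ha _
    _ = _ := by
        rw [neg_sq]
        have : Real.exp (-(Λ ^ 2 / (8 * m))) = Real.exp (-s / 2) * Real.exp ((s / Λ) ^ 2 * m / 2) := by
          rw [← Real.exp_add]; congr 1; rw [hsdef]; field_simp; ring
        rw [this]; ring

lemma geom_Icc (p : ℝ) (hp : 0 ≤ p) (hp2 : p ≤ 1 / 2) (K : ℕ) :
    ∑ j ∈ Finset.Icc (-(K : ℤ)) K, p ^ j.natAbs ≤ 1 + 4 * p - 4 * p ^ (K + 1) := by
  induction K with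
  | zero => simp
  | succ K ih =>
    have : Finset.Icc (-((K + 1 : ℕ) : ℤ)) ((K + 1 : ℕ) : ℤ) =
        insert ((K : ℤ) + 1) (insert (-((K : ℤ) + 1)) (Finset.Icc (-(K : ℤ)) K)) := by
      ext j; simp only [Finset.mem_Icc, Finset.mem_insert]; push_cast; omega
    rw [this, Finset.sum_insert (by simp only [Finset.mem_Icc, Finset.mem_insert]; omega),
      Finset.sum_insert (by simp only [Finset.mem_Icc]; omega)]
    have h1 : ((K : ℤ) + 1).natAbs = K + 1 := by omega
    have h2 : (-((K : ℤ) + 1)).natAbs = K + 1 := by omega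
    rw [h1, h2]
    have h3 : 0 ≤ p ^ (K + 1) := by positivity
    have h4 : p ^ (K + 1 + 1) = p ^ (K + 1) * p := by ring
    rw [h4]; nlinarith

lemma ball_card (χ₀ : ι → Bool) :
    (((Finset.univ.filter fun χ : ι → Bool =>
      8 * (Finset.univ.filter fun k => χ k ≠ χ₀ k).card < Fintype.card ι).card : ℕ) : ℝ)
      ≤ Real.exp (0.39 * Fintype.card ι) := by
  set m : ℝ := (Fintype.card ι : ℝ) with hmdef
  set r : ℝ := Real.exp (-2) with hr
  have hr0 : 0 < r := Real.exp_pos _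
  have h2 := Finset.prod_univ_sum (fun _ : ι => (Finset.univ : Finset Bool))
    (fun k b => if b ≠ χ₀ k then r else 1)
  rw [Fintype.piFinset_univ] at h2
  have h3 : ∀ k, ∑ b : Bool, (if b ≠ χ₀ k then r else 1) = 1 + r := by
    intro k; rw [Fintype.sum_bool]; cases χ₀ k <;> simp [add_comm]
  simp_rw [h3] at h2
  rw [Finset.prod_const, Finset.card_univ] at h2
  have h4 : ∀ χ : ι → Bool, ∏ k, (if χ k ≠ χ₀ k then r else 1) =
      r ^ (Finset.univ.filter fun k => χ k ≠ χ₀ k).card := by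
    intro χ; rw [Finset.prod_ite]; simp
  simp_rw [h4] at h2
  have h5 : ∀ χ ∈ (Finset.univ.filter fun χ : ι → Bool =>
      8 * (Finset.univ.filter fun k => χ k ≠ χ₀ k).card < Fintype.card ι),
      (1 : ℝ) ≤ Real.exp (m / 4) * r ^ (Finset.univ.filter fun k => χ k ≠ χ₀ k).card := by
    intro χ hχ
    rw [Finset.mem_filter] at hχ
    have h6 : (8 : ℝ) * ((Finset.univ.filter fun k => χ k ≠ χ₀ k).card : ℝ) < m := by
      rw [hmdef]; exact_mod_cast hχ.2
    rw [hr, ← Real.exp_nat_mul, ← Real.exp_add]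
    exact Real.one_le_exp (by linarith)
  have h7 : r ≤ 0.14 := by
    have h8 := Real.exp_one_gt_d9
    have h9 : Real.exp 2 = Real.exp 1 * Real.exp 1 := by rw [← Real.exp_add]; norm_num
    have h10 : r * Real.exp 2 = 1 := by rw [hr, ← Real.exp_add]; simp
    have h11 : (7.2 : ℝ) ≤ Real.exp 2 := by rw [h9]; nlinarith
    nlinarith
  rw [Finset.card_eq_sum_ones, Nat.cast_sum]
  simp only [Nat.cast_one]
  calc _ ≤ _ := Finset.sum_le_sum h5
    _ ≤ ∑ χ : ι → Bool, Real.exp (m / 4) * r ^ (Finset.univ.filter fun k => χ k ≠ χ₀ k).card :=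
        Finset.sum_le_sum_of_subset_of_nonneg (Finset.filter_subset _ _)
          (fun _ _ _ => by positivity)
    _ = Real.exp (m / 4) * (1 + r) ^ Fintype.card ι := by rw [← Finset.mul_sum, h2]
    _ ≤ Real.exp (m / 4) * (Real.exp 0.14) ^ Fintype.card ι := by
        gcongr
        have := Real.add_one_le_exp (0.14 : ℝ)
        linarith
    _ = _ := by rw [← Real.exp_nat_mul, ← Real.exp_add]; congr 1; rw [← hmdef]; ring

/-- **Partial colouring.** -/
theorem partial_colouring {κ : Type*} [Fintype κ] (a : κ → ι → ℝ) (ha : ∀ i k, |a i k| ≤ 1)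
    (M : ℝ) (hκ : (Fintype.card κ : ℝ) ≤ M) (hιM : (Fintype.card ι : ℝ) ≤ M)
    (hm : 0 < Fintype.card ι) (T : ℝ) (hT : 0 < T) (hT4 : Fintype.card ι * M ≤ T ^ 4) :
    ∃ ψ : ι → ℤ, (∀ k, ψ k = 0 ∨ ψ k = 1 ∨ ψ k = -1) ∧
      Fintype.card ι ≤ 8 * (Finset.univ.filter fun k => ψ k ≠ 0).card ∧
      ∀ i, |∑ k, a i k * (ψ k : ℝ)| ≤ 4.5 * T := by
  classical
  set m : ℝ := (Fintype.card ι : ℝ) with hmdef
  have hm0 : 0 < m := by rw [hmdef]; exact_mod_cast hm
  have hM0 : 0 < M := by linarith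
  set Λ : ℝ := 9 * T with hΛ
  have hΛ0 : 0 < Λ := by positivity
  have hT2 : m ≤ T ^ 2 := by
    by_contra h
    push Not at h
    have : T ^ 4 < m * m := by
      have : T ^ 4 = T ^ 2 * T ^ 2 := by ring
      rw [this]; exact mul_lt_mul'' h h (by positivity) (by positivity)
    nlinarith
  let L : κ → (ι → Bool) → ℝ := fun i χ => ∑ k, a i k * (sg (χ k) : ℝ)
  let b : (ι → Bool) → κ → ℤ := fun χ i => round (L i χ / Λ)
  -- it suffices to find two far apart colourings in one class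
  suffices h : ∃ χ χ' : ι → Bool, b χ = b χ' ∧
      Fintype.card ι ≤ 8 * (Finset.univ.filter fun k => χ k ≠ χ' k).card by
    obtain ⟨χ, χ', h1, h2⟩ := h
    refine ⟨fun k => (sg (χ k) - sg (χ' k)) / 2, fun k => ?_, ?_, fun i => ?_⟩
    · beta_reduce
      cases χ k <;> cases χ' k <;> simp [sg]
    · convert h2 using 4 with k
      beta_reduce
      cases χ k <;> cases χ' k <;> simp [sg]
    · have h3 : ∑ k, a i k * (((sg (χ k) - sg (χ' k)) / 2 : ℤ) : ℝ) = (L i χ - L i χ') / 2 := by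
        simp only [L]
        rw [← Finset.sum_sub_distrib, Finset.sum_div]
        refine Finset.sum_congr rfl fun k _ => ?_
        cases χ k <;> cases χ' k <;> simp [sg]
        ring
      rw [h3]
      have h4 := abs_sub_round (L i χ / Λ)
      have h5 := abs_sub_round (L i χ' / Λ)
      have h6 : round (L i χ / Λ) = round (L i χ' / Λ) := congrFun h1 i
      rw [h6] at h4
      have h7 : |L i χ / Λ - L i χ' / Λ| ≤ 1 := by
        rw [abs_le] at h4 h5 ⊢; constructor <;> linarith [h4.1, h4.2, h5.1, h5.2]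
      rw [← sub_div, abs_div, abs_of_pos hΛ0, div_le_one hΛ0] at h7
      rw [abs_div, abs_two]; linarith
  by_contra hcon
  push Not at hcon
  set ρ : ℝ := M / m with hρ
  have hρ1 : 1 ≤ ρ := by rw [hρ, le_div_iff₀ hm0]; linarith
  set p : ℝ := 1 / (40 * ρ) with hp
  have hp0 : 0 < p := by positivity
  have hp2 : p ≤ 1 / 2 := by rw [hp]; apply one_div_le_one_div_of_le <;> linarith
  -- expectation bound
  have hη : 2 * Real.exp (-(Λ ^ 2 / (8 * m))) ≤ 1 / (200 * ρ ^ 2) := by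
    set x : ℝ := Λ ^ 2 / (8 * m) with hx
    have hx0 : 0 ≤ x := by positivity
    have h1 := Real.pow_div_factorial_le_exp x hx0 4
    have h2 : 9600 * ρ ^ 2 ≤ x ^ 4 := by
      have h3 : x ^ 4 = (81 / 8) ^ 4 * ((T ^ 4) ^ 2 / m ^ 4) := by rw [hx, hΛ]; field_simp; ring
      have h4 : ρ ^ 2 = (m * M) ^ 2 / m ^ 4 := by rw [hρ]; field_simp
      have h5 : (m * M) ^ 2 / m ^ 4 ≤ (T ^ 4) ^ 2 / m ^ 4 := by gcongr
      have h6 : 0 ≤ (m * M) ^ 2 / m ^ 4 := by positivity
      rw [h3, h4]; nlinarith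
    have h3 : ((Nat.factorial 4 : ℕ) : ℝ) = 24 := by norm_num [Nat.factorial]
    rw [h3] at h1
    rw [Real.exp_neg, le_div_iff₀ (by positivity)]
    have h4 := Real.exp_pos x
    rw [mul_assoc, ← div_eq_inv_mul, ← mul_div_assoc, div_le_one h4]
    linarith
  let n : (ι → Bool) → ℕ := fun χ => ∑ i, (b χ i).natAbs
  have hE : ∑ χ, (n χ : ℝ) ≤ 2 ^ Fintype.card ι * (M / (200 * ρ ^ 2)) := by
    have h1 : ∀ χ, (n χ : ℝ) = ∑ i, |((b χ i : ℤ) : ℝ)| := by
      intro χ; simp only [n]; push_cast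
      refine Finset.sum_congr rfl fun i _ => ?_
      rw [Nat.cast_natAbs]; push_cast; rfl
    simp_rw [h1]
    rw [Finset.sum_comm]
    calc _ ≤ ∑ _i : κ, (2 : ℝ) ^ Fintype.card ι * (1 / (200 * ρ ^ 2)) := by
          refine Finset.sum_le_sum fun i _ => ?_
          refine (sum_abs_round_le (a i) (ha i) Λ hΛ0 hm (by rw [hΛ]; nlinarith)).trans ?_
          gcongr
      _ = Fintype.card κ * ((2 : ℝ) ^ Fintype.card ι * (1 / (200 * ρ ^ 2))) := by simp
      _ ≤ M * ((2 : ℝ) ^ Fintype.card ι * (1 / (200 * ρ ^ 2))) := by gcongr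
      _ = _ := by ring
  -- lower bound for the total weight
  have hlow : 2 ^ Fintype.card ι * Real.exp (-(m / 5)) ≤ ∑ χ, p ^ n χ := by
    have h1 : Real.exp (-(40 * ρ)) ≤ p := by
      rw [Real.exp_neg, hp, one_div]
      apply inv_anti₀ (by positivity)
      have := Real.add_one_le_exp (40 * ρ); linarith
    have h2 : ∀ χ, Real.exp (-(m / 5)) * (1 + m / 5 - 40 * ρ * n χ) ≤ p ^ n χ := by
      intro χ
      calc _ ≤ Real.exp (-(m / 5)) * Real.exp (m / 5 - 40 * ρ * n χ) := by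
            gcongr; have := Real.add_one_le_exp (m / 5 - 40 * ρ * n χ); linarith
        _ = Real.exp (-(40 * ρ)) ^ n χ := by
            rw [← Real.exp_add, ← Real.exp_nat_mul]; congr 1; ring
        _ ≤ _ := by gcongr
    refine le_trans ?_ (Finset.sum_le_sum fun χ _ => h2 χ)
    rw [← Finset.mul_sum, mul_comm]
    gcongr
    rw [Finset.sum_sub_distrib, ← Finset.mul_sum, Finset.sum_const, Finset.card_univ,
      Fintype.card_fun, Fintype.card_bool, nsmul_eq_mul]
    push_cast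
    have h3 : 40 * ρ * ∑ χ, (n χ : ℝ) ≤ 40 * ρ * (2 ^ Fintype.card ι * (M / (200 * ρ ^ 2))) := by
      gcongr
    have h4 : 40 * ρ * (2 ^ Fintype.card ι * (M / (200 * ρ ^ 2))) = 2 ^ Fintype.card ι * (m / 5) := by
      have : M = ρ * m := by rw [hρ]; field_simp
      rw [this]; field_simp; ring
    linarith
  -- upper bound for the total weight
  obtain ⟨K, hK⟩ : ∃ K : ℕ, ∀ χ i, (b χ i).natAbs ≤ K := by
    obtain ⟨K, hK⟩ := (Set.finite_range fun q : (ι → Bool) × κ => (b q.1 q.2).natAbs).bddAbove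
    exact ⟨K, fun χ i => hK ⟨(χ, i), rfl⟩⟩
  have hup : ∑ χ, p ^ n χ ≤ Real.exp (0.39 * m) * Real.exp (m / 10) := by
    have hmaps : ∀ χ ∈ (Finset.univ : Finset (ι → Bool)),
        b χ ∈ Fintype.piFinset fun _ : κ => Finset.Icc (-(K : ℤ)) K := by
      intro χ _
      rw [Fintype.mem_piFinset]
      intro i
      have := hK χ i
      rw [Finset.mem_Icc]; omega
    rw [← Finset.sum_fiberwise_of_maps_to hmaps]
    have h1 : ∀ y : κ → ℤ, ∑ χ ∈ Finset.univ.filter (fun χ => b χ = y), p ^ n χ ≤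
        Real.exp (0.39 * m) * ∏ i, p ^ (y i).natAbs := by
      intro y
      have h2 : ∀ χ ∈ Finset.univ.filter (fun χ => b χ = y), p ^ n χ = ∏ i, p ^ (y i).natAbs := by
        intro χ hχ
        rw [Finset.mem_filter] at hχ
        rw [Finset.prod_pow_eq_pow_sum, ← hχ.2]
      rw [Finset.sum_congr rfl h2, Finset.sum_const, nsmul_eq_mul]
      gcongr
      rcases (Finset.univ.filter (fun χ => b χ = y)).eq_empty_or_nonempty with h3 | ⟨χ₀, h3⟩
      · rw [h3]; simp only [Finset.card_empty, Nat.cast_zero]; positivity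
      · refine le_trans ?_ (ball_card χ₀)
        gcongr with χ _
        intro hχ
        rw [Finset.mem_filter] at h3
        exact hcon χ χ₀ (hχ.trans h3.2.symm)
    calc _ ≤ _ := Finset.sum_le_sum fun y _ => h1 y
      _ = Real.exp (0.39 * m) * ∏ _i : κ, ∑ j ∈ Finset.Icc (-(K : ℤ)) K, p ^ j.natAbs := by
          rw [← Finset.mul_sum, Finset.prod_univ_sum]
      _ ≤ Real.exp (0.39 * m) * ∏ _i : κ, Real.exp (4 * p) := by
          gcongr with i
          have := geom_Icc p hp0.le hp2 K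
          have h2 := Real.add_one_le_exp (4 * p)
          have h3 : 0 ≤ p ^ (K + 1) := by positivity
          linarith
      _ ≤ _ := by
          gcongr
          rw [Finset.prod_const, Finset.card_univ, ← Real.exp_nat_mul]
          apply Real.exp_le_exp.2
          have h2 : M * (4 * p) = m / 10 := by rw [hp, hρ]; field_simp; ring
          rw [← h2]; gcongr
  have h2m : Real.exp (0.693 * m) ≤ 2 ^ Fintype.card ι := by
    have h1 : Real.exp 0.693 ≤ 2 := by
      have := Real.log_two_gt_d9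
      calc Real.exp 0.693 ≤ Real.exp (Real.log 2) := Real.exp_le_exp.2 (by linarith)
        _ = 2 := Real.exp_log (by norm_num)
    rw [mul_comm, hmdef, Real.exp_nat_mul]
    gcongr
  have hfin : Real.exp (0.693 * m) * Real.exp (-(m / 5)) ≤ Real.exp (0.39 * m) * Real.exp (m / 10) :=
    le_trans (by gcongr) (hlow.trans hup)
  rw [← Real.exp_add, ← Real.exp_add, Real.exp_le_exp] at hfin
  linarith

end Crest.Agent.Spencer
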